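import Vale.Agent.P167.Defs

/-!
# P167, general `q`: shared definitions for the random-cluster model

`Q = √q`. The critical random-cluster model in loop form: in a finite set `D` of squares, with the
configuration `η` outside of `D`, the weight of `ω` (equal to `η` outside `D`) is
`Q ^ (number of the loops of ω which visit D)`.
-/

namespace Vale.Agent.P167.FK

open Finset Filter Topology MeasureTheory
open Vale.Agent.P145.FB (PStep PConn)

/-- All interfaces are finite loops. -/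
def Good (ω : Cfg) : Prop := ∀ e : Ed, ∃ ℓ, IsLoop ω ℓ ∧ e ∈ ℓ

/-- Number of the loops which visit `D`. -/
noncomputable def LD (D : Finset (ℤ × ℤ)) (ω : Cfg) : ℕ :=
  Set.ncard {ℓ | IsLoop ω ℓ ∧ ∃ v ∈ vs ℓ, v ∈ D}

/-- The configuration with open squares `S` in `D` and equal to `η` outside. -/
def cf (D : Finset (ℤ × ℤ)) (η : Cfg) (S : Finset (ℤ × ℤ)) : Cfg :=
  fun v => if v ∈ D then decide (v ∈ S) else η v

/-- Partition function. -/
noncomputable def Zq (Q : ℝ) (D : Finset (ℤ × ℤ)) (η : Cfg) : ℝ :=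
  ∑ S ∈ D.powerset, Q ^ LD D (cf D η S)

/-- Expectation in the finite domain `D` with the configuration `η` outside. -/
noncomputable def Ex (Q : ℝ) (D : Finset (ℤ × ℤ)) (η : Cfg) (F : Cfg → ℝ) : ℝ :=
  (∑ S ∈ D.powerset, Q ^ LD D (cf D η S) * F (cf D η S)) / Zq Q D η

/-- Probability. -/
noncomputable def Pr (Q : ℝ) (D : Finset (ℤ × ℤ)) (η : Cfg) (A : Set Cfg) : ℝ :=
  Ex Q D η (A.indicator 1)

/-- The primal corner of the square `v` with the smaller first coordinate. -/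
def pa (v : ℤ × ℤ) : ℤ × ℤ := if Even (v.1 + v.2) then v else (v.1, v.2 + 1)

/-- The primal corner of the square `v` with the larger first coordinate. -/
def pb (v : ℤ × ℤ) : ℤ × ℤ := if Even (v.1 + v.2) then (v.1 + 1, v.2 + 1) else (v.1 + 1, v.2)

/-- The dual corner of the square `v` with the smaller first coordinate. -/
def da (v : ℤ × ℤ) : ℤ × ℤ := if Even (v.1 + v.2) then (v.1, v.2 + 1) else v

/-- The dual corner of the square `v` with the larger first coordinate. -/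
def db (v : ℤ × ℤ) : ℤ × ℤ := if Even (v.1 + v.2) then (v.1 + 1, v.2) else (v.1 + 1, v.2 + 1)

/-- Primal connection in the plane. -/
def PC (ω : Cfg) (s t : ℤ × ℤ) : Prop := Relation.ReflTransGen (PStep (op ω)) s t

/-- Dual connection in the plane. -/
def DC (ω : Cfg) (s t : ℤ × ℤ) : Prop := Relation.ReflTransGen (PStep (op ω)ᶜ) s t

/-- The squares of the box of radius `R` around `x` (all corners at distance at most `R`). -/
noncomputable def Bq (x : ℤ × ℤ) (R : ℤ) : Finset (ℤ × ℤ) :=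
  Finset.Ico (x.1 - R) (x.1 + R) ×ˢ Finset.Ico (x.2 - R) (x.2 + R)

/-- Free boundary condition. -/
def eta0 : Cfg := fun _ => false

/-- Wired boundary condition. -/
def eta1 : Cfg := fun _ => true

/-- Open primal path from the box `(x, r)` to distance `R` of `x`. -/
def ArmPx (x : ℤ × ℤ) (r R : ℤ) (ω : Cfg) : Prop :=
  ∃ u v : ℤ × ℤ, Even (u.1 + u.2) ∧ nm (u - x) ≤ r ∧ R ≤ nm (v - x) ∧
    PConn (op ω) {w | nm (w - x) ≤ R} u v

/-- Open dual path from the box `(x, r)` to distance `R` of `x`. -/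
def ArmDx (x : ℤ × ℤ) (r R : ℤ) (ω : Cfg) : Prop :=
  ∃ u v : ℤ × ℤ, Odd (u.1 + u.2) ∧ nm (u - x) ≤ r ∧ R ≤ nm (v - x) ∧
    PConn (op ω)ᶜ {w | nm (w - x) ≤ R} u v

/-- Increasing functions of the configuration. -/
def IncF (F : Cfg → ℝ) : Prop := ∀ ω ω' : Cfg, (∀ v, ω v = true → ω' v = true) → F ω ≤ F ω'

/-- Strong Russo-Seymour-Welsh property, primal arms under wired boundary conditions and dual arms
under free boundary conditions. -/
def RSW (Q : ℝ) : Prop := ∃ (Λ : ℤ) (c : ℝ), 2 ≤ Λ ∧ 0 < c ∧ ∀ (x : ℤ × ℤ) (r : ℤ), 1 ≤ r →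
  Pr Q (Bq x (Λ * r)) eta1 {ω | ArmPx x r (Λ * r) ω} ≤ 1 - c ∧
  Pr Q (Bq x (Λ * r)) eta0 {ω | ArmDx x r (Λ * r) ω} ≤ 1 - c

/-! ## Statements -/

/-- GQ1.1: opening a square merges two loops or splits a loop. -/
def F_flip : Prop := ∀ (D : Finset (ℤ × ℤ)) (ω : Cfg) (a : ℤ × ℤ), Good ω → a ∈ D → ω a = false →
  (PC ω (pa a) (pb a) → LD D (Function.update ω a true) = LD D ω + 1) ∧
  (¬ PC ω (pa a) (pb a) → LD D (Function.update ω a true) + 1 = LD D ω)

/-- GQ1.2: goodness is stable under finite modifications; the constant configurations are good. -/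
def F_good : Prop := (∀ (D : Finset (ℤ × ℤ)) (ω : Cfg) (S : Finset (ℤ × ℤ)), Good ω →
  Good (cf D ω S)) ∧ Good eta0 ∧ Good eta1

/-- GQ1.3: Markov property. -/
def F_markov : Prop := ∀ (Q : ℝ) (D D' : Finset (ℤ × ℤ)) (η : Cfg) (F : Cfg → ℝ), 0 < Q → D ⊆ D' →
  Good η → Ex Q D' η F = Ex Q D' η (fun ω => Ex Q D ω F)

/-- GQ1.4: positive association. -/
def F_fkg : Prop := ∀ (Q : ℝ) (D : Finset (ℤ × ℤ)) (η : Cfg) (F G : Cfg → ℝ), 1 ≤ Q → Good η →
  IncF F → IncF G → Ex Q D η F * Ex Q D η G ≤ Ex Q D η (fun ω => F ω * G ω)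

/-- GQ1.5: comparison of boundary conditions. -/
def F_comp : Prop := ∀ (Q : ℝ) (D : Finset (ℤ × ℤ)) (η η' : Cfg) (F : Cfg → ℝ), 1 ≤ Q → Good η →
  Good η' → (∀ v, η v = true → η' v = true) → IncF F → Ex Q D η F ≤ Ex Q D η' F

/-- Duality: complement and shift by `(1, 0)`. -/
def du (ω : Cfg) : Cfg := fun v => !(ω (v.1 - 1, v.2))

/-- GQ1.6: duality. -/
def F_dual : Prop := (∀ ω, Good ω → Good (du ω)) ∧
  ∀ (Q : ℝ) (D : Finset (ℤ × ℤ)) (η : Cfg) (F : Cfg → ℝ), 0 < Q → Good η →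
    Ex Q (D.image (fun v => (v.1 + 1, v.2))) (du η) F = Ex Q D η (fun ω => F (du ω))

/-- Symmetries of the plane which preserve the parity of the sites, acting on squares. -/
def syms : List ((ℤ × ℤ) → (ℤ × ℤ)) :=
  [fun v => (v.1 + 1, v.2 + 1), fun v => (v.1 + 1, v.2 - 1), fun v => (-1 - v.1, v.2),
    fun v => (v.1, -1 - v.2), fun v => (v.2, v.1)]

/-- GQ1.7: symmetries. -/
def F_sym : Prop := ∀ τ ∈ syms, (∀ ω, Good ω → Good (ω ∘ τ)) ∧
  ∀ (Q : ℝ) (D : Finset (ℤ × ℤ)) (η : Cfg) (F : Cfg → ℝ), 0 < Q → Good η →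
    Ex Q D (η ∘ τ) F = Ex Q (D.image τ) η (fun ω => F (ω ∘ τ))

end Vale.Agent.P167.FK
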