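import Vale.Agent.P167.FK.Defs
import Vale.Agent.P167.Top.PlaneW
import Vale.Agent.P167.Top.Turn

/-!
# P167, general `q`: opening a square merges or splits loops (`F_flip`)
-/

namespace Vale.Agent.P167.FK

open Finset Vale.Agent.P167.Top
open Vale.Agent.P145.FB (PStep PConn)

/-- The incoming edge at `v` whose left site is `pa v`. -/
def ia (v : ℤ × ℤ) : Ed := if Even (v.1 + v.2) then Sum.inr (v.1, v.2 - 1) else Sum.inl (v.1 - 1, v.2)

/-- The incoming edge at `v` whose left site is `pb v`. -/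
def ib (v : ℤ × ℤ) : Ed := if Even (v.1 + v.2) then Sum.inr v else Sum.inl v

theorem hdv_ia (v : ℤ × ℤ) : hdv (ia v) = v := by
  obtain ⟨x, y⟩ := v
  by_cases h : Even (x + y) <;> simp [ia, hdv, h, ev3, ev4]

theorem hdv_ib (v : ℤ × ℤ) : hdv (ib v) = v := by
  obtain ⟨x, y⟩ := v
  by_cases h : Even (x + y) <;> simp [ib, hdv, h]

theorem ls_ia (v : ℤ × ℤ) : ls (ia v) = pa v := by
  obtain ⟨x, y⟩ := v
  by_cases h : Even (x + y) <;> simp [ia, ls, pa, h, ev3, ev4]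

theorem ls_ib (v : ℤ × ℤ) : ls (ib v) = pb v := by
  obtain ⟨x, y⟩ := v
  by_cases h : Even (x + y) <;> simp [ib, ls, pb, h]

theorem rs_ia (v : ℤ × ℤ) : rs (ia v) = if Even (v.1 + v.2) then db v else da v := by
  obtain ⟨x, y⟩ := v
  by_cases h : Even (x + y) <;> simp [ia, rs, da, db, h, ev3, ev4]

theorem rs_ib (v : ℤ × ℤ) : rs (ib v) = if Even (v.1 + v.2) then da v else db v := by
  obtain ⟨x, y⟩ := v
  by_cases h : Even (x + y) <;> simp [ib, rs, da, db, h]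

theorem ia_ne_ib (v : ℤ × ℤ) : ia v ≠ ib v := by
  obtain ⟨x, y⟩ := v
  by_cases h : Even (x + y) <;> simp [ia, ib, h]

theorem eq_of_hdv {e : Ed} {v : ℤ × ℤ} (h : hdv e = v) : e = ia v ∨ e = ib v := by
  subst h
  rcases e with ⟨x, y⟩ | ⟨x, y⟩ <;> by_cases h : Even (x + y) <;>
    simp [ia, ib, hdv, h, ev1, ev2]

theorem nx_update_of_ne (ω : Cfg) {a : ℤ × ℤ} {e : Ed} (h : hdv e ≠ a) (b : Bool) :
    nx (Function.update ω a b) e = nx ω e :=
  nx_congr (by rw [Function.update_of_ne h])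

theorem nx_update_ia (ω : Cfg) {a : ℤ × ℤ} (h : ω a = false) :
    nx (Function.update ω a true) (ia a) = nx ω (ib a) := by
  obtain ⟨x, y⟩ := a
  by_cases h' : Even (x + y) <;> simp [ia, ib, nx, h, h', ev3, ev4]

theorem nx_update_ib (ω : Cfg) {a : ℤ × ℤ} (h : ω a = false) :
    nx (Function.update ω a true) (ib a) = nx ω (ia a) := by
  obtain ⟨x, y⟩ := a
  by_cases h' : Even (x + y) <;> simp [ia, ib, nx, h, h', ev3, ev4]

/-! ### Sites along a loop -/

theorem even_ls (e : Ed) : Even ((ls e).1 + (ls e).2) := by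
  rcases e with ⟨x, y⟩ | ⟨x, y⟩ <;> by_cases h : Even (x + y) <;>
    simp only [ls, h, if_true, if_false] <;> rw [Int.even_iff] at * <;> omega

theorem odd_rs (e : Ed) : Odd ((rs e).1 + (rs e).2) := by
  rcases e with ⟨x, y⟩ | ⟨x, y⟩ <;> by_cases h : Even (x + y) <;>
    simp only [rs, h, if_true, if_false] <;> rw [Int.even_iff] at h <;> rw [Int.odd_iff] <;> omega

theorem step_ab {ω : Cfg} {a : ℤ × ℤ} (h : ω a = true) : PStep (op ω) (pa a) (pb a) := by
  obtain ⟨x, y⟩ := a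
  by_cases h' : Even (x + y)
  · simp only [pa, pb, h', if_true]
    refine ⟨Or.inl rfl, Or.inl rfl, ?_⟩
    simpa [op] using h
  · simp only [pa, pb, h', if_false]
    refine ⟨Or.inl rfl, Or.inr (by simp), ?_⟩
    simpa [op] using h

theorem dstep_ab {ω : Cfg} {a : ℤ × ℤ} (h : ω a = false) : PStep (op ω)ᶜ (da a) (db a) := by
  obtain ⟨x, y⟩ := a
  by_cases h' : Even (x + y)
  · simp only [da, db, h', if_true]
    refine ⟨Or.inl rfl, Or.inr (by simp), ?_⟩
    simpa [op] using h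
  · simp only [da, db, h', if_false]
    refine ⟨Or.inl rfl, Or.inl rfl, ?_⟩
    simpa [op] using h

theorem ls_nx_step (ω : Cfg) (e : Ed) :
    ls (nx ω e) = ls e ∨ PStep (op ω) (ls e) (ls (nx ω e)) := by
  cases h : ω (hdv e) with
  | false => exact Or.inl (ls_nx h)
  | true =>
    right
    have h1 := step_ab h
    set a := hdv e with ha
    have h2 : ls e = pa a ∧ ls (nx ω e) = pb a ∨ ls e = pb a ∧ ls (nx ω e) = pa a := by
      clear_value a
      obtain ⟨x, y⟩ := a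
      rcases eq_of_hdv ha.symm with he | he <;> subst he
      · left
        refine ⟨ls_ia _, ?_⟩
        by_cases h' : Even (x + y) <;> simp [ia, nx, ls, pb, h, h', ev3, ev4]
      · right
        refine ⟨ls_ib _, ?_⟩
        by_cases h' : Even (x + y) <;> simp [ib, nx, ls, pa, h, h', ev3]
    rcases h2 with ⟨h3, h4⟩ | ⟨h3, h4⟩
    · rw [h3, h4]; exact h1
    · rw [h3, h4]; exact h1.symm

/-- The left sites of a loop are in one primal cluster. -/
theorem PC_of_loop {ω : Cfg} {ℓ : Finset Ed} (h : IsLoop ω ℓ) {e e' : Ed} (he : e ∈ ℓ)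
    (he' : e' ∈ ℓ) : PC ω (ls e) (ls e') := by
  refine h.induct (p := fun x => PC ω (ls e) (ls x)) (fun x _ hx => ?_) he he'
    Relation.ReflTransGen.refl
  rcases ls_nx_step ω x with h1 | h1
  · rw [h1]; exact hx
  · exact hx.tail h1

theorem even_step {F : Set (ℤ × ℤ)} {s t : ℤ × ℤ} (h : PStep F s t) (hs : Even (s.1 + s.2)) :
    Even (t.1 + t.2) := by
  obtain ⟨h1, h2, -⟩ := h
  rw [Int.even_iff] at *
  omega

/-- Winding numbers are constant on primal clusters. -/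
theorem W_PC {ω : Cfg} {ℓ : Finset Ed} (h : IsLoop ω ℓ) {s t : ℤ × ℤ} (hs : Even (s.1 + s.2))
    (hst : PC ω s t) : W ℓ s = W ℓ t := by
  have key : W ℓ s = W ℓ t ∧ Even (t.1 + t.2) := by
    induction hst with
    | refl => exact ⟨rfl, hs⟩
    | tail _ h1 ih => exact ⟨ih.1.trans (s_step ω ℓ h _ _ (Or.inl ⟨ih.2, h1⟩)), even_step h1 ih.2⟩
  exact key.1

/-- At a closed square the two strands are on the same loop iff the primal corners are connected. -/
theorem same_loop_iff {ω : Cfg} {ℓ : Finset Ed} (h : IsLoop ω ℓ) {a : ℤ × ℤ} (ha : ω a = false)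
    (h1 : ia a ∈ ℓ) : ib a ∈ ℓ ↔ PC ω (pa a) (pb a) := by
  constructor
  · intro h2
    have := PC_of_loop h h1 h2
    rwa [ls_ia, ls_ib] at this
  · intro hPC
    by_contra h2
    have e1 := s_jump ω ℓ h (ia a)
    have e2 := s_jump ω ℓ h (ib a)
    rw [if_pos h1] at e1
    rw [if_neg h2] at e2
    have ev : Even ((pa a).1 + (pa a).2) := by rw [← ls_ia]; exact even_ls _
    have e3 := W_PC h ev hPC
    have e4 : W ℓ (rs (ia a)) = W ℓ (rs (ib a)) := by
      have h5 : W ℓ (da a) = W ℓ (db a) := by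
        refine s_step ω ℓ h _ _ (Or.inr ⟨?_, dstep_ab ha⟩)
        by_cases hev : Even (a.1 + a.2)
        · have := odd_rs (ib a)
          rwa [rs_ib, if_pos hev] at this
        · have := odd_rs (ia a)
          rwa [rs_ia, if_neg hev] at this
      rw [rs_ia, rs_ib]
      split_ifs
      · exact h5.symm
      · exact h5
    rw [ls_ia] at e1
    rw [ls_ib] at e2
    omega

/-! ### Invariant sets -/

/-- A nonempty subset of a loop which is invariant under `nx` is the loop. -/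
theorem mem_of_inv {ω : Cfg} {ℓ : Finset Ed} (h : IsLoop ω ℓ) {p : Ed → Prop}
    (hp : ∀ e ∈ ℓ, p e → p (nx ω e)) {e : Ed} (he : e ∈ ℓ) (h1 : p e) : ∀ e' ∈ ℓ, p e' :=
  fun _ he' => h.induct hp he he' h1

/-- Orbits inside a finite invariant set are loops. -/
theorem exists_loop_of_inv {ω : Cfg} {U : Finset Ed} (hU : ∀ e ∈ U, nx ω e ∈ U) {e : Ed}
    (he : e ∈ U) : ∃ ℓ, IsLoop ω ℓ ∧ e ∈ ℓ ∧ ℓ ⊆ U := by
  classical
  have hit : ∀ n, (nx ω)^[n] e ∈ U := by
    intro n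
    induction n with
    | zero => exact he
    | succ n ih => rw [Function.iterate_succ_apply']; exact hU _ ih
  refine ⟨U.filter fun e' => ∃ n : ℕ, (nx ω)^[n] e = e', ⟨e, fun e' => ?_⟩, ?_,
    Finset.filter_subset _ _⟩
  · rw [Finset.mem_filter]
    refine ⟨fun h => h.2, fun h => ⟨?_, h⟩⟩
    obtain ⟨n, rfl⟩ := h
    exact hit n
  · exact Finset.mem_filter.mpr ⟨he, 0, rfl⟩

/-- Being a loop, by invariance and minimality. -/
theorem isLoop_of_min {ω : Cfg} {U : Finset Ed} (hU : ∀ e ∈ U, nx ω e ∈ U) {e : Ed} (he : e ∈ U)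
    (hmin : ∀ ℓ, IsLoop ω ℓ → e ∈ ℓ → ℓ ⊆ U → U ⊆ ℓ) : IsLoop ω U := by
  obtain ⟨ℓ, h1, h2, h3⟩ := exists_loop_of_inv hU he
  rwa [Finset.Subset.antisymm (hmin ℓ h1 h2 h3) h3]

variable {ω : Cfg} {a : ℤ × ℤ}

/-- A set which is invariant for `ω` and contains both incoming edges at `a` or none of them is
invariant for the flipped configuration. -/
theorem inv_update (ha : ω a = false) {U : Finset Ed} (hU : ∀ e ∈ U, nx ω e ∈ U)
    (hab : ia a ∈ U ↔ ib a ∈ U) : ∀ e ∈ U, nx (Function.update ω a true) e ∈ U := by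
  intro e he
  by_cases h : hdv e = a
  · rcases eq_of_hdv h with rfl | rfl
    · rw [nx_update_ia ω ha]
      exact hU _ (hab.mp he)
    · rw [nx_update_ib ω ha]
      exact hU _ (hab.mpr he)
  · rw [nx_update_of_ne ω h]
    exact hU _ he

theorem inv_update' (ha : ω a = false) {U : Finset Ed}
    (hU : ∀ e ∈ U, nx (Function.update ω a true) e ∈ U)
    (hab : ia a ∈ U ↔ ib a ∈ U) : ∀ e ∈ U, nx ω e ∈ U := by
  intro e he
  by_cases h : hdv e = a
  · rcases eq_of_hdv h with rfl | rfl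
    · rw [← nx_update_ib ω ha]
      exact hU _ (hab.mp he)
    · rw [← nx_update_ia ω ha]
      exact hU _ (hab.mpr he)
  · rw [← nx_update_of_ne ω h true]
    exact hU _ he

/-- Two loops merge. -/
theorem merge (ha : ω a = false) {ℓ ℓ' : Finset Ed} (h : IsLoop ω ℓ) (h' : IsLoop ω ℓ')
    (h1 : ia a ∈ ℓ) (h2 : ib a ∈ ℓ') (hne : ℓ ≠ ℓ') :
    IsLoop (Function.update ω a true) (ℓ ∪ ℓ') := by
  classical
  have h1' : ia a ∉ ℓ' := fun hh => hne (h.eq_of_mem h' h1 hh)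
  have h2' : ib a ∉ ℓ := fun hh => hne (h.eq_of_mem h' hh h2)
  refine isLoop_of_min (e := ia a) (inv_update ha ?_ ?_) (Finset.mem_union_left _ h1) ?_
  · intro e he
    rcases Finset.mem_union.mp he with he | he
    · exact Finset.mem_union_left _ (h.nx_mem he)
    · exact Finset.mem_union_right _ (h'.nx_mem he)
  · exact ⟨fun _ => Finset.mem_union_right _ h2, fun _ => Finset.mem_union_left _ h1⟩
  · intro S hS hiS hSU
    -- `ib a ∈ S`
    have hb : ib a ∈ S := by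
      have h3 : nx ω (ib a) ∈ S := by
        rw [← nx_update_ia ω ha]
        exact hS.nx_mem hiS
      have h4 : nx ω (ib a) ∈ ℓ' := h'.nx_mem h2
      by_contra hb
      refine hb (mem_of_inv h' (p := fun e => e ∈ S) (fun e he heS => ?_) h4 h3 _ h2)
      by_cases hhd : hdv e = a
      · rcases eq_of_hdv hhd with rfl | rfl
        · exact absurd he h1'
        · exact absurd heS hb
      · rw [← nx_update_of_ne ω hhd true]
        exact hS.nx_mem heS
    have hinv := inv_update' ha (U := S) (fun e he => hS.nx_mem he)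
      ⟨fun _ => hb, fun _ => hiS⟩
    apply Finset.union_subset
    · exact mem_of_inv h (p := fun e => e ∈ S) (fun e _ heS => hinv e heS) h1 hiS
    · exact mem_of_inv h' (p := fun e => e ∈ S) (fun e _ heS => hinv e heS) h2 hb

/-- The turning of a loop which passes twice at `a` changes by four: it is split. -/
theorem split (ha : ω a = false) {ℓ ℓ' : Finset Ed} (h : IsLoop ω ℓ)
    (h' : IsLoop (Function.update ω a true) ℓ') (h1 : ia a ∈ ℓ) (h2 : ib a ∈ ℓ)
    (h1' : ia a ∈ ℓ') : ib a ∉ ℓ' := by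
  classical
  intro h2'
  -- `ℓ = ℓ'`
  have e1 : ℓ ⊆ ℓ' := by
    refine mem_of_inv h (p := fun e => e ∈ ℓ') (fun e _ he => ?_) h1 h1'
    exact inv_update' ha (fun e he => h'.nx_mem he) ⟨fun _ => h2', fun _ => h1'⟩ e he
  have e2 : ℓ' ⊆ ℓ := by
    refine mem_of_inv h' (p := fun e => e ∈ ℓ) (fun e _ he => ?_) h1' h1
    exact inv_update ha (fun e he => h.nx_mem he) ⟨fun _ => h2, fun _ => h1⟩ e he
  have e3 : ℓ = ℓ' := Finset.Subset.antisymm e1 e2
  subst e3
  have t1 := turn_loop h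
  have t2 := turn_loop h'
  have t3 : ∑ e ∈ ℓ, (trn ω e - trn (Function.update ω a true) e) = 4 := by
    have h4 : ∀ e ∈ ℓ, trn ω e - trn (Function.update ω a true) e =
        (if e = ia a then 2 else 0) + (if e = ib a then 2 else 0) := by
      intro e _
      by_cases hhd : hdv e = a
      · have h5 : trn ω e - trn (Function.update ω a true) e = 2 := by
          unfold trn
          rw [hhd, Function.update_self, ha]
          norm_num
        rw [h5]
        rcases eq_of_hdv hhd with rfl | rfl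
        · rw [if_pos rfl, if_neg (ia_ne_ib a)]
          norm_num
        · rw [if_neg (ia_ne_ib a).symm, if_pos rfl]
          norm_num
      · have h5 : trn ω e - trn (Function.update ω a true) e = 0 := by
          unfold trn
          rw [Function.update_of_ne hhd]
          ring
        rw [h5, if_neg (fun hh => hhd (by rw [hh, hdv_ia])),
          if_neg (fun hh => hhd (by rw [hh, hdv_ib]))]
        norm_num
    rw [Finset.sum_congr rfl h4, Finset.sum_add_distrib, Finset.sum_ite_eq', Finset.sum_ite_eq',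
      if_pos h1, if_pos h2]
    norm_num
  rw [Finset.sum_sub_distrib] at t3
  rcases t1 with ⟨t1, -⟩ | ⟨t1, -⟩ <;> rcases t2 with ⟨t2, -⟩ | ⟨t2, -⟩ <;> omega

/-! ### Goodness -/

theorem exists_inv (hG : Good ω) (a : ℤ × ℤ) (e : Ed) : ∃ U : Finset Ed, (∀ e ∈ U, nx ω e ∈ U) ∧
    ia a ∈ U ∧ ib a ∈ U ∧ e ∈ U := by
  classical
  obtain ⟨ℓ1, h1, m1⟩ := hG (ia a)
  obtain ⟨ℓ2, h2, m2⟩ := hG (ib a)
  obtain ⟨ℓ3, h3, m3⟩ := hG e
  refine ⟨ℓ1 ∪ ℓ2 ∪ ℓ3, fun x hx => ?_, by simp [m1], by simp [m2], by simp [m3]⟩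
  simp only [Finset.mem_union] at hx ⊢
  rcases hx with (hx | hx) | hx
  · exact Or.inl (Or.inl (h1.nx_mem hx))
  · exact Or.inl (Or.inr (h2.nx_mem hx))
  · exact Or.inr (h3.nx_mem hx)

theorem good_update (hG : Good ω) (a : ℤ × ℤ) (b : Bool) : Good (Function.update ω a b) := by
  intro e
  obtain ⟨U, hU, h1, h2, h3⟩ := exists_inv hG a e
  have key : ∀ e ∈ U, nx (Function.update ω a b) e ∈ U := by
    cases ha : ω a <;> cases b
    · rwa [← ha, Function.update_eq_self]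
    · exact inv_update ha hU ⟨fun _ => h2, fun _ => h1⟩
    · refine inv_update' (Function.update_self a false ω) ?_ ⟨fun _ => h2, fun _ => h1⟩
      rwa [Function.update_idem, ← ha, Function.update_eq_self]
    · rwa [← ha, Function.update_eq_self]
  obtain ⟨ℓ, h4, h5, -⟩ := exists_loop_of_inv key h3
  exact ⟨ℓ, h4, h5⟩

theorem cf_empty (ω : Cfg) (S : Finset (ℤ × ℤ)) : cf ∅ ω S = ω := by
  funext v
  simp [cf]

theorem cf_insert (a : ℤ × ℤ) (D : Finset (ℤ × ℤ)) (ω : Cfg) (S : Finset (ℤ × ℤ)) :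
    cf (insert a D) ω S = Function.update (cf D ω S) a (decide (a ∈ S)) := by
  funext v
  by_cases h : v = a
  · subst h
    simp [cf]
  · simp [cf, h]

theorem good_cf (D : Finset (ℤ × ℤ)) (hG : Good ω) (S : Finset (ℤ × ℤ)) : Good (cf D ω S) := by
  induction D using Finset.induction with
  | empty => rwa [cf_empty]
  | insert a D _ ih => rw [cf_insert]; exact good_update ih _ _

theorem nx4_eta0 (e : Ed) : nx eta0 (nx eta0 (nx eta0 (nx eta0 e))) = e := by
  rcases e with ⟨x, y⟩ | ⟨x, y⟩ <;> by_cases h : Even (x + y) <;>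
    simp [nx, eta0, h, ev1, ev2, ev3, ev4]

theorem nx4_eta1 (e : Ed) : nx eta1 (nx eta1 (nx eta1 (nx eta1 e))) = e := by
  rcases e with ⟨x, y⟩ | ⟨x, y⟩ <;> by_cases h : Even (x + y) <;>
    simp [nx, eta1, h, ev1, ev2, ev3, ev4]

theorem good_of_nx4 {ω : Cfg} (h : ∀ e, nx ω (nx ω (nx ω (nx ω e))) = e) : Good ω := by
  classical
  intro e
  obtain ⟨ℓ, h1, h2, -⟩ := exists_loop_of_inv (ω := ω)
    (U := {e, nx ω e, nx ω (nx ω e), nx ω (nx ω (nx ω e))}) (e := e) (by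
      intro x hx
      simp only [Finset.mem_insert, Finset.mem_singleton] at hx ⊢
      rcases hx with rfl | rfl | rfl | rfl
      · exact Or.inr (Or.inl rfl)
      · exact Or.inr (Or.inr (Or.inl rfl))
      · exact Or.inr (Or.inr (Or.inr rfl))
      · exact Or.inl (h e)) (by simp)
  exact ⟨ℓ, h1, h2⟩

theorem good_eta0 : Good eta0 := good_of_nx4 nx4_eta0

theorem good_eta1 : Good eta1 := good_of_nx4 nx4_eta1

/-- GQ1.2 -/
theorem f_good : F_good := ⟨fun D _ S hG => good_cf D hG S, good_eta0, good_eta1⟩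

/-! ### Counting -/

theorem mem_vs_iff {ℓ : Finset Ed} {a : ℤ × ℤ} : a ∈ vs ℓ ↔ ia a ∈ ℓ ∨ ib a ∈ ℓ := by
  constructor
  · intro h
    obtain ⟨e, he, hea⟩ := Finset.mem_image.mp h
    rcases eq_of_hdv hea with rfl | rfl
    · exact Or.inl he
    · exact Or.inr he
  · rintro (h | h)
    · exact Finset.mem_image.mpr ⟨_, h, hdv_ia a⟩
    · exact Finset.mem_image.mpr ⟨_, h, hdv_ib a⟩

theorem finite_LD (hG : Good ω) (D : Finset (ℤ × ℤ)) :
    {ℓ | IsLoop ω ℓ ∧ ∃ v ∈ vs ℓ, v ∈ D}.Finite := by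
  classical
  choose L hL using hG
  refine Set.Finite.subset
    (((D.image fun v => L (ia v)) ∪ (D.image fun v => L (ib v))).finite_toSet) ?_
  rintro ℓ ⟨h1, v, hv, hvD⟩
  rw [Finset.mem_coe, Finset.mem_union, Finset.mem_image, Finset.mem_image]
  rcases mem_vs_iff.mp hv with h | h
  · exact Or.inl ⟨v, hvD, (hL (ia v)).1.eq_of_mem h1 (hL (ia v)).2 h⟩
  · exact Or.inr ⟨v, hvD, (hL (ib v)).1.eq_of_mem h1 (hL (ib v)).2 h⟩

theorem LD_eq (hG : Good ω) {D : Finset (ℤ × ℤ)} {a : ℤ × ℤ} (haD : a ∈ D) :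
    LD D ω = Set.ncard {ℓ | IsLoop ω ℓ ∧ a ∉ vs ℓ ∧ ∃ v ∈ vs ℓ, v ∈ D} +
      Set.ncard {ℓ | IsLoop ω ℓ ∧ a ∈ vs ℓ} := by
  have hfin := finite_LD hG D
  rw [← Set.ncard_union_eq ?_ (hfin.subset fun ℓ h => ⟨h.1, h.2.2⟩)
    (hfin.subset fun ℓ h => ⟨h.1, a, h.2, haD⟩)]
  · unfold LD
    congr 1
    ext ℓ
    simp only [Set.mem_ofPred_eq, Set.mem_union]
    constructor
    · rintro ⟨h1, h2⟩
      by_cases h : a ∈ vs ℓ
      · exact Or.inr ⟨h1, h⟩
      · exact Or.inl ⟨h1, h, h2⟩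
    · rintro (⟨h1, -, h2⟩ | ⟨h1, h2⟩)
      · exact ⟨h1, h2⟩
      · exact ⟨h1, a, h2, haD⟩
  · rw [Set.disjoint_left]
    rintro ℓ ⟨-, h, -⟩ ⟨-, h'⟩
    exact h h'

theorem common_eq (ω : Cfg) (a : ℤ × ℤ) (b : Bool) (D : Finset (ℤ × ℤ)) :
    {ℓ | IsLoop (Function.update ω a b) ℓ ∧ a ∉ vs ℓ ∧ ∃ v ∈ vs ℓ, v ∈ D} =
      {ℓ | IsLoop ω ℓ ∧ a ∉ vs ℓ ∧ ∃ v ∈ vs ℓ, v ∈ D} := by
  ext ℓ
  simp only [Set.mem_ofPred_eq]
  constructor
  · rintro ⟨h1, h2, h3⟩
    exact ⟨s_loc _ _ ℓ h1 fun v hv => by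
      rw [Function.update_of_ne (fun h => h2 (by rwa [← h]))], h2, h3⟩
  · rintro ⟨h1, h2, h3⟩
    exact ⟨s_loc _ _ ℓ h1 fun v hv => by
      rw [Function.update_of_ne (fun h => h2 (by rwa [← h]))], h2, h3⟩

theorem ncard_one {ℓ : Finset Ed} (h : IsLoop ω ℓ) (h1 : ia a ∈ ℓ) (h2 : ib a ∈ ℓ) :
    Set.ncard {ℓ | IsLoop ω ℓ ∧ a ∈ vs ℓ} = 1 := by
  rw [Set.ncard_eq_one]
  refine ⟨ℓ, ?_⟩
  ext ℓ'
  simp only [Set.mem_ofPred_eq, Set.mem_singleton_iff]
  constructor
  · rintro ⟨h3, h4⟩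
    rcases mem_vs_iff.mp h4 with h5 | h5
    · exact h3.eq_of_mem h h5 h1
    · exact h3.eq_of_mem h h5 h2
  · rintro rfl
    exact ⟨h, mem_vs_iff.mpr (Or.inl h1)⟩

theorem ncard_two {ℓ ℓ' : Finset Ed} (h : IsLoop ω ℓ) (h' : IsLoop ω ℓ') (h1 : ia a ∈ ℓ)
    (h2 : ib a ∈ ℓ') (hne : ℓ ≠ ℓ') : Set.ncard {ℓ | IsLoop ω ℓ ∧ a ∈ vs ℓ} = 2 := by
  rw [Set.ncard_eq_two]
  refine ⟨ℓ, ℓ', hne, ?_⟩
  ext ℓ''
  simp only [Set.mem_ofPred_eq, Set.mem_insert_iff, Set.mem_singleton_iff]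
  constructor
  · rintro ⟨h3, h4⟩
    rcases mem_vs_iff.mp h4 with h5 | h5
    · exact Or.inl (h3.eq_of_mem h h5 h1)
    · exact Or.inr (h3.eq_of_mem h' h5 h2)
  · rintro (rfl | rfl)
    · exact ⟨h, mem_vs_iff.mpr (Or.inl h1)⟩
    · exact ⟨h', mem_vs_iff.mpr (Or.inr h2)⟩

/-- GQ1.1 -/
theorem f_flip : F_flip := by
  intro D ω a hG haD ha
  have hG' := good_update hG a true
  rw [LD_eq hG' haD, LD_eq hG haD, common_eq]
  obtain ⟨ℓ1, h1, m1⟩ := hG (ia a)
  obtain ⟨ℓ2, h2, m2⟩ := hG (ib a)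
  have hiff := same_loop_iff h1 ha m1
  constructor
  · intro hPC
    have m3 := hiff.mpr hPC
    obtain ⟨ℓ3, h3, m4⟩ := hG' (ia a)
    obtain ⟨ℓ4, h4, m5⟩ := hG' (ib a)
    have h5 := split ha h1 h3 m1 m3 m4
    rw [ncard_one h1 m1 m3, ncard_two h3 h4 m4 m5 (fun h => h5 (by rw [h]; exact m5))]
  · intro hPC
    have hne : ℓ1 ≠ ℓ2 := fun h => hPC (hiff.mp (by rw [h]; exact m2))
    rw [ncard_two h1 h2 m1 m2 hne, ncard_one (merge ha h1 h2 m1 m2 hne)
      (Finset.mem_union_left _ m1) (Finset.mem_union_right _ m2)]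

end Vale.Agent.P167.FK
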