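import Vale.Agent.P167.FK.Flip

/-!
# P167, general `q`: duality and symmetries (`F_dual`, `F_sym`)
-/

namespace Vale.Agent.P167.FK

set_option linter.unusedSimpArgs false

open Finset Vale.Agent.P167.Top
open Vale.Agent.P145.FB (PStep PConn)

theorem mem_im {α : Type*} [DecidableEq α] (φ : α ≃ α) (s : Finset α) (x : α) :
    x ∈ s.image φ ↔ φ.symm x ∈ s := by
  rw [Finset.mem_image]
  constructor
  · rintro ⟨y, hy, rfl⟩
    rwa [Equiv.symm_apply_apply]
  · intro h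
    exact ⟨_, h, Equiv.apply_symm_apply _ _⟩

/-- Symmetry which preserves the direction of the interfaces. -/
structure SyP (φ : Ed ≃ Ed) (σ : ℤ × ℤ ≃ ℤ × ℤ) (ω ω' : Cfg) : Prop where
  n : ∀ e, nx ω' (φ e) = φ (nx ω e)
  h : ∀ e, hdv (φ e) = σ (hdv e)

/-- Symmetry which reverses the direction of the interfaces. -/
structure SyR (φ : Ed ≃ Ed) (σ : ℤ × ℤ ≃ ℤ × ℤ) (ω ω' : Cfg) : Prop where
  n : ∀ e, nx ω' (φ (nx ω e)) = φ e
  h : ∀ e, hdv (φ e) = σ (tlv e)
  t : ∀ e, tlv (φ e) = σ (hdv e)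

/-- Symmetry of the loops. -/
structure Sy (φ : Ed ≃ Ed) (σ : ℤ × ℤ ≃ ℤ × ℤ) (ω ω' : Cfg) : Prop where
  l : ∀ ℓ, IsLoop ω ℓ → IsLoop ω' (ℓ.image φ) ∧ vs (ℓ.image φ) = (vs ℓ).image σ
  r : ∀ ℓ, IsLoop ω' ℓ → IsLoop ω (ℓ.image φ.symm) ∧ vs (ℓ.image φ.symm) = (vs ℓ).image σ.symm

variable {φ : Ed ≃ Ed} {σ : ℤ × ℤ ≃ ℤ × ℤ} {ω ω' : Cfg}

theorem SyP.symm (h : SyP φ σ ω ω') : SyP φ.symm σ.symm ω' ω where
  n := fun e => by
    have := h.n (φ.symm e)
    rw [Equiv.apply_symm_apply] at this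
    rw [this, Equiv.symm_apply_apply]
  h := fun e => by
    have := h.h (φ.symm e)
    rw [Equiv.apply_symm_apply] at this
    rw [this, Equiv.symm_apply_apply]

theorem SyR.symm (h : SyR φ σ ω ω') : SyR φ.symm σ.symm ω' ω where
  n := fun e => by
    have h1 := h.n (pv ω (φ.symm e))
    rw [nx_pv, Equiv.apply_symm_apply] at h1
    rw [h1, Equiv.symm_apply_apply, nx_pv]
  h := fun e => by
    have := h.t (φ.symm e)
    rw [Equiv.apply_symm_apply] at this
    rw [this, Equiv.symm_apply_apply]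
  t := fun e => by
    have := h.h (φ.symm e)
    rw [Equiv.apply_symm_apply] at this
    rw [this, Equiv.symm_apply_apply]

theorem SyP.loop (h : SyP φ σ ω ω') {ℓ : Finset Ed} (hℓ : IsLoop ω ℓ) :
    IsLoop ω' (ℓ.image φ) ∧ vs (ℓ.image φ) = (vs ℓ).image σ := by
  constructor
  · obtain ⟨e, he⟩ := hℓ.nonempty
    refine isLoop_of_min (e := φ e) (fun x hx => ?_) (Finset.mem_image_of_mem _ he) ?_
    · obtain ⟨y, hy, rfl⟩ := Finset.mem_image.mp hx
      rw [h.n]
      exact Finset.mem_image_of_mem _ (hℓ.nx_mem hy)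
    · intro S hS heS _ x hx
      obtain ⟨y, hy, rfl⟩ := Finset.mem_image.mp hx
      refine mem_of_inv hℓ (p := fun e => φ e ∈ S) (fun e _ he' => ?_) he heS y hy
      rw [← h.n]
      exact hS.nx_mem he'
  · unfold vs
    rw [Finset.image_image, Finset.image_image]
    exact Finset.image_congr fun e _ => h.h e

theorem image_tlv {ℓ : Finset Ed} (hℓ : IsLoop ω ℓ) : ℓ.image tlv = vs ℓ := by
  conv_lhs => rw [← hℓ.image]
  rw [Finset.image_image]
  exact Finset.image_congr fun e _ => tlv_nx ω e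

theorem SyR.loop (h : SyR φ σ ω ω') {ℓ : Finset Ed} (hℓ : IsLoop ω ℓ) :
    IsLoop ω' (ℓ.image φ) ∧ vs (ℓ.image φ) = (vs ℓ).image σ := by
  constructor
  · obtain ⟨e, he⟩ := hℓ.nonempty
    refine isLoop_of_min (e := φ e) (fun x hx => ?_) (Finset.mem_image_of_mem _ he) ?_
    · obtain ⟨y, hy, rfl⟩ := Finset.mem_image.mp hx
      have h1 := h.n (pv ω y)
      rw [nx_pv] at h1
      rw [h1]
      exact Finset.mem_image_of_mem _ (hℓ.pv_mem_iff.mpr hy)
    · intro S hS heS _ x hx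
      obtain ⟨y, hy, rfl⟩ := Finset.mem_image.mp hx
      refine mem_of_inv hℓ (p := fun e => φ e ∈ S) (fun e _ he' => ?_) he heS y hy
      rw [← hS.nx_mem_iff, h.n]
      exact he'
  · rw [← image_tlv hℓ]
    unfold vs
    rw [Finset.image_image, Finset.image_image]
    exact Finset.image_congr fun e _ => h.h e

theorem SyP.sy (h : SyP φ σ ω ω') : Sy φ σ ω ω' := ⟨fun _ => h.loop, fun _ => h.symm.loop⟩

theorem SyR.sy (h : SyR φ σ ω ω') : Sy φ σ ω ω' := ⟨fun _ => h.loop, fun _ => h.symm.loop⟩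

theorem Sy.good (h : Sy φ σ ω ω') (hG : Good ω) : Good ω' := by
  intro e
  obtain ⟨ℓ, h1, h2⟩ := hG (φ.symm e)
  exact ⟨_, (h.l ℓ h1).1, (mem_im φ ℓ e).mpr h2⟩

theorem im_im_symm {α : Type*} [DecidableEq α] (φ : α ≃ α) (s : Finset α) :
    (s.image φ.symm).image φ = s := by
  rw [Finset.image_image, Equiv.self_comp_symm, Finset.image_id]

theorem Sy.LD (h : Sy φ σ ω ω') (D : Finset (ℤ × ℤ)) : FK.LD (D.image σ) ω' = FK.LD D ω := by
  unfold FK.LD
  have h1 : {ℓ | IsLoop ω' ℓ ∧ ∃ v ∈ vs ℓ, v ∈ D.image σ} =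
      (fun ℓ : Finset Ed => ℓ.image φ) '' {ℓ | IsLoop ω ℓ ∧ ∃ v ∈ vs ℓ, v ∈ D} := by
    ext ℓ
    simp only [Set.mem_ofPred_eq, Set.mem_image]
    constructor
    · rintro ⟨h1, v, hv, hvD⟩
      obtain ⟨h2, h3⟩ := h.r ℓ h1
      refine ⟨ℓ.image φ.symm, ⟨h2, σ.symm v, ?_, (mem_im σ D v).mp hvD⟩, im_im_symm φ ℓ⟩
      rw [h3]
      exact Finset.mem_image_of_mem _ hv
    · rintro ⟨ℓ', ⟨h1, v, hv, hvD⟩, rfl⟩
      obtain ⟨h2, h3⟩ := h.l ℓ' h1
      refine ⟨h2, σ v, ?_, Finset.mem_image_of_mem _ hvD⟩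
      rw [h3]
      exact Finset.mem_image_of_mem _ hv
  rw [h1, Set.ncard_image_of_injective _ (Finset.image_injective φ.injective)]

/-- Change of variables. -/
theorem Ex_sy {σ : ℤ × ℤ ≃ ℤ × ℤ} {D : Finset (ℤ × ℤ)} {η η' : Cfg} {T : Cfg → Cfg}
    (g : Finset (ℤ × ℤ) → Finset (ℤ × ℤ)) (hg : ∀ S ∈ D.powerset, g S ∈ (D.image σ).powerset)
    (hinj : Set.InjOn g D.powerset) (hcf : ∀ S ∈ D.powerset, cf (D.image σ) η' (g S) = T (cf D η S))
    (hLD : ∀ S ∈ D.powerset, LD (D.image σ) (T (cf D η S)) = LD D (cf D η S)) (Q : ℝ)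
    (F : Cfg → ℝ) : Ex Q (D.image σ) η' F = Ex Q D η (fun ω => F (T ω)) := by
  have key : ∀ H : Cfg → ℝ, ∑ S ∈ (D.image σ).powerset, Q ^ LD (D.image σ) (cf (D.image σ) η' S) *
      H (cf (D.image σ) η' S) = ∑ S ∈ D.powerset, Q ^ LD D (cf D η S) * H (T (cf D η S)) := by
    intro H
    have himg : (D.image σ).powerset = D.powerset.image g := by
      symm
      apply Finset.eq_of_subset_of_card_le
      · intro x hx
        obtain ⟨S, hS, rfl⟩ := Finset.mem_image.mp hx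
        exact hg S hS
      · rw [Finset.card_image_of_injOn hinj, Finset.card_powerset, Finset.card_powerset,
          Finset.card_image_of_injective _ σ.injective]
    rw [himg, Finset.sum_image hinj]
    refine Finset.sum_congr rfl fun S hS => ?_
    rw [hcf S hS, hLD S hS]
  unfold Ex Zq
  rw [key]
  congr 1
  have := key fun _ => 1
  simpa only [mul_one] using this

/-! ### Duality -/

/-- Shift of the medial edges by `(1, 0)`. -/
def shE : Ed ≃ Ed where
  toFun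
    | Sum.inl v => Sum.inl (v.1 + 1, v.2)
    | Sum.inr v => Sum.inr (v.1 + 1, v.2)
  invFun
    | Sum.inl v => Sum.inl (v.1 - 1, v.2)
    | Sum.inr v => Sum.inr (v.1 - 1, v.2)
  left_inv := by rintro (v | v) <;> simp
  right_inv := by rintro (v | v) <;> simp

/-- Shift of the squares by `(1, 0)`. -/
def shV : ℤ × ℤ ≃ ℤ × ℤ where
  toFun v := (v.1 + 1, v.2)
  invFun v := (v.1 - 1, v.2)
  left_inv := by intro v; simp
  right_inv := by intro v; simp

theorem syR_du (ω : Cfg) : SyR shE shV ω (du ω) where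
  n := by
    rintro (⟨x, y⟩ | ⟨x, y⟩)
    · by_cases h : Even (x + y)
      · cases h1 : ω (x + 1, y) <;> simp [nx, shE, du, h, h1, ev1, ev2, ev3, ev4]
      · cases h1 : ω (x, y) <;> simp [nx, shE, du, h, h1, ev1, ev2, ev3, ev4]
    · by_cases h : Even (x + y)
      · cases h1 : ω (x, y) <;> simp [nx, shE, du, h, h1, ev1, ev2, ev3, ev4]
      · cases h1 : ω (x, y + 1) <;> simp [nx, shE, du, h, h1, ev1, ev2, ev3, ev4]
  h := by
    rintro (⟨x, y⟩ | ⟨x, y⟩) <;> by_cases h : Even (x + y) <;> simp [hdv, tlv, shE, shV, h, ev1]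
  t := by
    rintro (⟨x, y⟩ | ⟨x, y⟩) <;> by_cases h : Even (x + y) <;> simp [hdv, tlv, shE, shV, h, ev1]

theorem f_dual : F_dual := by
  refine ⟨fun ω hG => (syR_du ω).sy.good hG, fun Q D η F _ _ => ?_⟩
  refine Ex_sy (σ := shV) (T := du) (fun S => (D \ S).image shV) (fun S _ => ?_) ?_ (fun S _ => ?_)
    (fun S _ => (syR_du _).sy.LD D) Q F
  · exact Finset.mem_powerset.mpr (Finset.image_subset_image Finset.sdiff_subset)
  · intro S hS S' hS' h
    have hS1 := Finset.mem_powerset.mp hS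
    have hS2 := Finset.mem_powerset.mp hS'
    have h1 : D \ S = D \ S' := Finset.image_injective shV.injective h
    rw [← Finset.sdiff_sdiff_eq_self hS1, h1, Finset.sdiff_sdiff_eq_self hS2]
  · funext v
    have h1 : ∀ s : Finset (ℤ × ℤ), v ∈ s.image shV ↔ (v.1 - 1, v.2) ∈ s := fun s => mem_im shV s v
    unfold cf du
    simp only [h1, Finset.mem_sdiff]
    by_cases h2 : (v.1 - 1, v.2) ∈ D
    · simp [h2]
    · simp [h2]

/-! ### Symmetries -/

theorem sym_of {τ : ℤ × ℤ → ℤ × ℤ} (σ : ℤ × ℤ ≃ ℤ × ℤ) (hσ : ∀ v, τ v = σ.symm v) (φ : Ed ≃ Ed)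
    (h : ∀ ω : Cfg, Sy φ σ ω (ω ∘ τ)) : (∀ ω, Good ω → Good (ω ∘ τ)) ∧
    ∀ (Q : ℝ) (D : Finset (ℤ × ℤ)) (η : Cfg) (F : Cfg → ℝ), 0 < Q → Good η →
      Ex Q D (η ∘ τ) F = Ex Q (D.image τ) η (fun ω => F (ω ∘ τ)) := by
  have hτ : τ = σ.symm := funext hσ
  refine ⟨fun ω hG => (h ω).good hG, fun Q D η F _ _ => ?_⟩
  have hD : (D.image τ).image σ = D := by
    rw [hτ]; exact im_im_symm σ D
  have key := Ex_sy (σ := σ) (D := D.image τ) (η := η) (η' := η ∘ τ) (T := fun ω => ω ∘ τ)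
    (fun S => S.image σ) (fun S hS => ?_) ?_ (fun S _ => ?_) (fun S _ => (h _).LD _) Q F
  · rw [hD] at key
    exact key
  · exact Finset.mem_powerset.mpr (Finset.image_subset_image (Finset.mem_powerset.mp hS))
  · intro S _ S' _ h'
    exact Finset.image_injective σ.injective h'
  · funext v
    simp only [cf, Function.comp, mem_im, hτ]

/-- Translation of the squares. -/
def trV (p : ℤ × ℤ) : ℤ × ℤ ≃ ℤ × ℤ where
  toFun v := (v.1 - p.1, v.2 - p.2)
  invFun v := (v.1 + p.1, v.2 + p.2)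
  left_inv := by intro v; simp
  right_inv := by intro v; simp

/-- Translation of the medial edges. -/
def trE (p : ℤ × ℤ) : Ed ≃ Ed where
  toFun
    | Sum.inl v => Sum.inl (v.1 - p.1, v.2 - p.2)
    | Sum.inr v => Sum.inr (v.1 - p.1, v.2 - p.2)
  invFun
    | Sum.inl v => Sum.inl (v.1 + p.1, v.2 + p.2)
    | Sum.inr v => Sum.inr (v.1 + p.1, v.2 + p.2)
  left_inv := by rintro (v | v) <;> simp
  right_inv := by rintro (v | v) <;> simp

theorem syP_tr (p : ℤ × ℤ) (hp : Even (p.1 + p.2)) (ω : Cfg) :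
    SyP (trE p) (trV p) ω (ω ∘ fun v => (v.1 + p.1, v.2 + p.2)) where
  n := by
    obtain ⟨p, q⟩ := p
    have hev : ∀ x y : ℤ, Even (x - p + (y - q)) ↔ Even (x + y) := fun x y => by
      simp only [Int.even_iff] at hp ⊢; omega
    have s1 : ∀ x p : ℤ, x - p + 1 + p = x + 1 := fun x p => by ring
    have s2 : ∀ x p : ℤ, x - p + 1 = x + 1 - p := fun x p => by ring
    have s3 : ∀ x p : ℤ, x - p - 1 = x - 1 - p := fun x p => by ring
    rintro (⟨x, y⟩ | ⟨x, y⟩)
    · by_cases h : Even (x + y)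
      · cases h1 : ω (x + 1, y) <;> simp [nx, trE, h, h1, hev, s1] <;> omega
      · cases h1 : ω (x, y) <;> simp [nx, trE, h, h1, hev] <;> omega
    · by_cases h : Even (x + y)
      · cases h1 : ω (x, y) <;> simp [nx, trE, h, h1, hev] <;> omega
      · cases h1 : ω (x, y + 1) <;> simp [nx, trE, h, h1, hev, s1] <;> omega
  h := by
    obtain ⟨p, q⟩ := p
    have hev : ∀ x y : ℤ, Even (x - p + (y - q)) ↔ Even (x + y) := fun x y => by
      simp only [Int.even_iff] at hp ⊢; omega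
    rintro (⟨x, y⟩ | ⟨x, y⟩) <;> by_cases h : Even (x + y) <;> simp [hdv, trE, trV, h, hev] <;>
      omega

/-- Reflection of the first coordinate, squares. -/
def rxV : ℤ × ℤ ≃ ℤ × ℤ where
  toFun v := (-1 - v.1, v.2)
  invFun v := (-1 - v.1, v.2)
  left_inv := by intro v; simp
  right_inv := by intro v; simp

/-- Reflection of the first coordinate, medial edges. -/
def rxE : Ed ≃ Ed where
  toFun
    | Sum.inl v => Sum.inl (-2 - v.1, v.2)
    | Sum.inr v => Sum.inr (-1 - v.1, v.2)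
  invFun
    | Sum.inl v => Sum.inl (-2 - v.1, v.2)
    | Sum.inr v => Sum.inr (-1 - v.1, v.2)
  left_inv := by rintro (v | v) <;> simp
  right_inv := by rintro (v | v) <;> simp

/-- Reflection of the second coordinate, squares. -/
def ryV : ℤ × ℤ ≃ ℤ × ℤ where
  toFun v := (v.1, -1 - v.2)
  invFun v := (v.1, -1 - v.2)
  left_inv := by intro v; simp
  right_inv := by intro v; simp

/-- Reflection of the second coordinate, medial edges. -/
def ryE : Ed ≃ Ed where
  toFun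
    | Sum.inl v => Sum.inl (v.1, -1 - v.2)
    | Sum.inr v => Sum.inr (v.1, -2 - v.2)
  invFun
    | Sum.inl v => Sum.inl (v.1, -1 - v.2)
    | Sum.inr v => Sum.inr (v.1, -2 - v.2)
  left_inv := by rintro (v | v) <;> simp
  right_inv := by rintro (v | v) <;> simp

/-- Transposition, squares. -/
def swV : ℤ × ℤ ≃ ℤ × ℤ where
  toFun v := (v.2, v.1)
  invFun v := (v.2, v.1)
  left_inv := by intro v; simp
  right_inv := by intro v; simp

/-- Transposition, medial edges. -/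
def swE : Ed ≃ Ed where
  toFun
    | Sum.inl v => Sum.inr (v.2, v.1)
    | Sum.inr v => Sum.inl (v.2, v.1)
  invFun
    | Sum.inl v => Sum.inr (v.2, v.1)
    | Sum.inr v => Sum.inl (v.2, v.1)
  left_inv := by rintro (v | v) <;> simp
  right_inv := by rintro (v | v) <;> simp

theorem syR_sw (ω : Cfg) : SyR swE swV ω (ω ∘ fun v => (v.2, v.1)) where
  n := by
    have hc : ∀ x y : ℤ, Even (y + x) ↔ Even (x + y) := fun x y => by rw [add_comm]
    rintro (⟨x, y⟩ | ⟨x, y⟩)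
    · by_cases h : Even (x + y)
      · cases h1 : ω (x + 1, y) <;> simp [nx, swE, h, h1, ev1, ev2, ev3, ev4, hc x y]
      · cases h1 : ω (x, y) <;> simp [nx, swE, h, h1, ev1, ev2, ev3, ev4, hc x y]
    · by_cases h : Even (x + y)
      · cases h1 : ω (x, y) <;> simp [nx, swE, h, h1, ev1, ev2, ev3, ev4, hc x y]
      · cases h1 : ω (x, y + 1) <;> simp [nx, swE, h, h1, ev1, ev2, ev3, ev4, hc x y]
  h := by
    have hc : ∀ x y : ℤ, Even (y + x) ↔ Even (x + y) := fun x y => by rw [add_comm]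
    rintro (⟨x, y⟩ | ⟨x, y⟩) <;> by_cases h : Even (x + y) <;> simp [hdv, tlv, swE, swV, h, hc x y]
  t := by
    have hc : ∀ x y : ℤ, Even (y + x) ↔ Even (x + y) := fun x y => by rw [add_comm]
    rintro (⟨x, y⟩ | ⟨x, y⟩) <;> by_cases h : Even (x + y) <;> simp [hdv, tlv, swE, swV, h, hc x y]

theorem nn1 (x : ℤ) : -1 - (x + 1) = -2 - x := by ring

theorem nn2 (x : ℤ) : -1 - x - 1 = -2 - x := by ring

theorem nn3 (x : ℤ) : -2 - x + 1 = -1 - x := by ring

theorem nn4 (x : ℤ) : -2 - (x - 1) = -1 - x := by ring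

theorem nn5 (x : ℤ) : -1 - (-1 - x) = x := by ring

theorem nn6 (x : ℤ) : -1 - (-2 - x) = x + 1 := by ring

theorem px1 (x y : ℤ) : Even (-1 - x + y) ↔ ¬ Even (x + y) := by
  simp only [Int.even_iff]; omega

theorem px2 (x y : ℤ) : Even (-2 - x + y) ↔ Even (x + y) := by
  simp only [Int.even_iff]; omega

theorem py1 (x y : ℤ) : Even (x + (-1 - y)) ↔ ¬ Even (x + y) := by
  simp only [Int.even_iff]; omega

theorem py2 (x y : ℤ) : Even (x + (-2 - y)) ↔ Even (x + y) := by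
  simp only [Int.even_iff]; omega

theorem syR_rx (ω : Cfg) : SyR rxE rxV ω (ω ∘ fun v => (-1 - v.1, v.2)) where
  n := by
    rintro (⟨x, y⟩ | ⟨x, y⟩)
    · by_cases h : Even (x + y)
      · cases h1 : ω (x + 1, y) <;>
          simp [nx, rxE, h, h1, ev1, ev2, ev3, ev4, px1, px2, nn1, nn2, nn3, nn4, nn5, nn6]
      · cases h1 : ω (x, y) <;>
          simp [nx, rxE, h, h1, ev1, ev2, ev3, ev4, px1, px2, nn1, nn2, nn3, nn4, nn5, nn6]
    · by_cases h : Even (x + y)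
      · cases h1 : ω (x, y) <;>
          simp [nx, rxE, h, h1, ev1, ev2, ev3, ev4, px1, px2, nn1, nn2, nn3, nn4, nn5, nn6]
      · cases h1 : ω (x, y + 1) <;>
          simp [nx, rxE, h, h1, ev1, ev2, ev3, ev4, px1, px2, nn1, nn2, nn3, nn4, nn5, nn6]
  h := by
    rintro (⟨x, y⟩ | ⟨x, y⟩) <;> by_cases h : Even (x + y) <;>
      simp [hdv, tlv, rxE, rxV, h, px1, px2] <;> omega
  t := by
    rintro (⟨x, y⟩ | ⟨x, y⟩) <;> by_cases h : Even (x + y) <;>
      simp [hdv, tlv, rxE, rxV, h, px1, px2] <;> omega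

theorem syR_ry (ω : Cfg) : SyR ryE ryV ω (ω ∘ fun v => (v.1, -1 - v.2)) where
  n := by
    rintro (⟨x, y⟩ | ⟨x, y⟩)
    · by_cases h : Even (x + y)
      · cases h1 : ω (x + 1, y) <;>
          simp [nx, ryE, h, h1, ev1, ev2, ev3, ev4, py1, py2, nn1, nn2, nn3, nn4, nn5, nn6]
      · cases h1 : ω (x, y) <;>
          simp [nx, ryE, h, h1, ev1, ev2, ev3, ev4, py1, py2, nn1, nn2, nn3, nn4, nn5, nn6]
    · by_cases h : Even (x + y)
      · cases h1 : ω (x, y) <;>
          simp [nx, ryE, h, h1, ev1, ev2, ev3, ev4, py1, py2, nn1, nn2, nn3, nn4, nn5, nn6]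
      · cases h1 : ω (x, y + 1) <;>
          simp [nx, ryE, h, h1, ev1, ev2, ev3, ev4, py1, py2, nn1, nn2, nn3, nn4, nn5, nn6]
  h := by
    rintro (⟨x, y⟩ | ⟨x, y⟩) <;> by_cases h : Even (x + y) <;>
      simp [hdv, tlv, ryE, ryV, h, py1, py2] <;> omega
  t := by
    rintro (⟨x, y⟩ | ⟨x, y⟩) <;> by_cases h : Even (x + y) <;>
      simp [hdv, tlv, ryE, ryV, h, py1, py2] <;> omega

/-- GQ1.7 -/
theorem f_sym : F_sym := by
  intro τ hτ
  simp only [syms, List.mem_cons, List.not_mem_nil, or_false] at hτ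
  rcases hτ with rfl | rfl | rfl | rfl | rfl
  · exact sym_of (trV (1, 1)) (fun _ => rfl) (trE (1, 1)) fun ω =>
      (syP_tr (1, 1) (by decide) ω).sy
  · exact sym_of (trV (1, -1)) (fun _ => rfl) (trE (1, -1)) fun ω =>
      (syP_tr (1, -1) (by decide) ω).sy
  · exact sym_of rxV (fun _ => rfl) rxE fun ω => (syR_rx ω).sy
  · exact sym_of ryV (fun _ => rfl) ryE fun ω => (syR_ry ω).sy
  · exact sym_of swV (fun _ => rfl) swE fun ω => (syR_sw ω).sy

end Vale.Agent.P167.FK
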